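import Vale.Agent.P136.Main

/-!
# P136: uniqueness in the inverse problem for isotropic elasticity in three dimensions

The displacement-to-traction map determines both moduli, with no smallness assumption.
The argument is described in `Vale/Agent/P136/PROOF.md`.
-/

namespace Vale.Agent.Results.P136.Uniqueness

open Vale.Agent.P136

/-- Two admissible pairs with the same displacement-to-traction map are equal. -/
theorem result (Ω : Set R3) (lam₁ mu₁ lam₂ mu₂ : R3 → ℝ) (hΩ : SmoothDomain Ω)
    (h₁ : Admissible Ω lam₁ mu₁) (h₂ : Admissible Ω lam₂ mu₂)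
    (hS : DN.SameMap Ω lam₁ mu₁ lam₂ mu₂) :
    ∀ x ∈ closure Ω, lam₁ x = lam₂ x ∧ mu₁ x = mu₂ x :=
  uniqueness hΩ h₁ h₂ hS

end Vale.Agent.Results.P136.Uniqueness
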